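import Vale.Agent.P181.H411.Seam4

set_option autoImplicit false

/-!
# P181: block designs with a nonnegative Vandermonde product give invariants
-/

open scoped TensorProduct

namespace Vale.Agent.P181.H23

open Vale.Agent.P181 Vale.Agent.P181.H280 Vale.Agent.P181.FR Vale.Agent.P181.T4 MvPolynomial

variable {m b : ℕ}

/-- The determinant of the points `B i`. -/
noncomputable def dt (B : Fin m → Fin b) : MvPolynomial (Fin m × Fin b) ℂ :=
  (Matrix.of fun j i : Fin m => (X (i, B j) : MvPolynomial (Fin m × Fin b) ℂ)).det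

lemma evalP_dt (B : Fin m → Fin b) (p : Fin b → Fin m → ℂ) :
    evalP b m (dt B) p = (Matrix.of fun j i : Fin m => p (B j) i).det := by
  rw [evalP_apply, dt, RingHom.map_det]
  congr 1
  ext j i
  simp

/-- Degrees of the determinant. -/
lemma dt_wh (B : Fin m → Fin b) (x : Fin b) :
    IsWeightedHomogeneous (colW (m := m) x) (dt B) (∑ i, if B i = x then 1 else 0) := by
  classical
  rw [dt, Matrix.det_apply]
  refine IsWeightedHomogeneous.sum _ _ _ fun σ _ => ?_
  have h : IsWeightedHomogeneous (colW (m := m) x)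
      (∏ i, (Matrix.of fun j i : Fin m => (X (i, B j) : MvPolynomial (Fin m × Fin b) ℂ)) (σ i) i)
      (∑ i, if B (σ i) = x then 1 else 0) := by
    refine IsWeightedHomogeneous.prod _ _ _ fun i _ => ?_
    exact isWeightedHomogeneous_X ℂ (colW (m := m) x) (i, B (σ i))
  rw [Equiv.sum_comp σ (fun i => if B i = x then 1 else 0)] at h
  rcases Int.units_eq_one_or (Equiv.Perm.sign σ) with h1 | h1
  · rw [h1, one_smul]
    exact h
  · rw [h1, Units.neg_smul, one_smul]
    exact (weightedHomogeneousSubmodule ℂ (colW (m := m) x) _).neg_mem h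

lemma evalP_prod {I : Type} [Fintype I] (B : I → Fin m → Fin b) (p : Fin b → Fin m → ℂ) :
    evalP b m (∏ β, dt (B β)) p = ∏ β, (Matrix.of fun j i : Fin m => p (B β j) i).det := by
  rw [evalP_apply, map_prod]
  exact Finset.prod_congr rfl fun β _ => evalP_dt (B β) p

/-- On the moment curve. -/
lemma det_moment (u : Fin m → ℝ) :
    (Matrix.of fun j i : Fin m => ((u j : ℝ) : ℂ) ^ (i : ℕ)).det =
      ((∏ i, ∏ j ∈ Finset.Ioi i, (u j - u i) : ℝ) : ℂ) := by
  have h := Matrix.det_vandermonde (fun j : Fin m => ((u j : ℝ) : ℂ))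
  have h2 : (Matrix.of fun j i : Fin m => ((u j : ℝ) : ℂ) ^ (i : ℕ)) =
      Matrix.vandermonde fun j : Fin m => ((u j : ℝ) : ℂ) := rfl
  rw [h2, h]
  push_cast
  rfl

lemma dt_HWF {I : Type} [Fintype I] (B : I → Fin m → Fin b) :
    HWF b m (fun _ => Fintype.card I) (evalP b m (∏ β, dt (B β))) := by
  classical
  intro g hg p
  rw [evalP_prod, evalP_prod]
  have h2 : ∀ β, (Matrix.of fun j i : Fin m => Matrix.vecMul (p (B β j)) g i).det =
      (Matrix.of fun j i : Fin m => p (B β j) i).det * g.det := by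
    intro β
    rw [← Matrix.det_mul]
    rfl
  rw [Finset.prod_congr rfl fun β _ => h2 β, Finset.prod_mul_distrib, Finset.prod_const,
    Finset.card_univ, Finset.prod_pow, mul_comm]
  congr 2
  exact Matrix.det_of_isUpperTriangular fun i j hij => hg.1 i j hij

/-- The function of a design on the moment curve. -/
lemma evalP_moment {I : Type} [Fintype I] (B : I → Fin m → Fin b) (t : Fin b → ℝ) :
    evalP b m (∏ β, dt (B β)) (fun j i => ((t j : ℝ) : ℂ) ^ (i : ℕ)) =
      ((∏ β, ∏ i, ∏ j ∈ Finset.Ioi i, (t (B β j) - t (B β i)) : ℝ) : ℂ) := by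
  rw [evalP_prod, Complex.ofReal_prod]
  exact Finset.prod_congr rfl fun β _ => det_moment fun j => t (B β j)

/-- The degrees of a design. -/
lemma colHom_prod {I : Type} [Fintype I] (B : I → Fin m → Fin b) {a : ℕ}
    (h : ∀ x, ∑ β, ∑ i, (if B β i = x then 1 else 0) = a) :
    ColHom a (∏ β, dt (B β)) := by
  classical
  intro x
  have h1 := IsWeightedHomogeneous.prod Finset.univ (fun β => dt (B β))
    (fun β => ∑ i, if B β i = x then 1 else 0) (fun β _ => dt_wh (B β) x)
  rwa [h x] at h1

/-- One design on `Fin b`. -/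
lemma blk_aux {I : Type} [Fintype I] {a : ℕ} (B : I → Fin m → Fin b)
    (hinj : ∀ β, Function.Injective (B β))
    (hdeg : ∀ x, ∑ β, ∑ i, (if B β i = x then 1 else 0) = a)
    (hpos : ∀ t : Fin b → ℝ, Function.Injective t →
      0 ≤ ∏ β, ∏ i, ∏ j ∈ Finset.Ioi i, (t (B β j) - t (B β i))) :
    1 ≤ plethMult b a m (fun _ => Fintype.card I) := by
  classical
  obtain ⟨t, ht⟩ : ∃ t : Fin b → ℝ, Function.Injective t :=
    ⟨fun j => ((j : ℕ) : ℝ), fun j k h => Fin.ext (Nat.cast_injective h)⟩
  have hpos' : ∀ s : Equiv.Perm (Fin b),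
      0 < ∏ β, ∏ i, ∏ j ∈ Finset.Ioi i, (t (s (B β j)) - t (s (B β i))) := by
    intro s
    have hi : Function.Injective fun x => t (s x) := ht.comp s.injective
    refine lt_of_le_of_ne (hpos (fun x => t (s x)) hi) (Ne.symm ?_)
    refine Finset.prod_ne_zero_iff.2 fun β _ => Finset.prod_ne_zero_iff.2 fun i _ =>
      Finset.prod_ne_zero_iff.2 fun j hj => ?_
    rw [sub_ne_zero]
    intro h
    have h1 := hinj β (hi h)
    exact (Finset.mem_Ioi.1 hj).ne' h1
  have hsum : (∑ s : Equiv.Perm (Fin b), evalP b m (∏ β, dt (B β))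
      (fun j i => ((t (s j) : ℝ) : ℂ) ^ (i : ℕ))) ≠ 0 := by
    rw [Finset.sum_congr rfl fun s _ => evalP_moment B (fun j => t (s j)), ← Complex.ofReal_sum,
      Complex.ofReal_ne_zero]
    exact (Finset.sum_pos (fun s _ => hpos' s) Finset.univ_nonempty).ne'
  have hli : LinearIndependent ℂ (fun _ : Unit => fun p : Fin b → Fin m → ℂ =>
      ∑ s : Equiv.Perm (Fin b), evalP b m (∏ β, dt (B β)) (fun j => p (s j))) := by
    refine LinearIndependent.of_subsingleton () ?_
    intro h0
    exact hsum (congrFun h0 (fun j i => ((t j : ℝ) : ℂ) ^ (i : ℕ)))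
  have h := plethMult_ge (b := b) (a := a) (m := m)
    (lam := fun _ => Fintype.card I) (ι := Unit) (fun _ => evalP b m (∏ β, dt (B β)))
    (fun _ => evalP_mem (colHom_prod B hdeg)) (fun _ => dt_HWF B) hli
  rwa [Fintype.card_unit] at h

/-- **The shared lemma.** -/
theorem blk {P I : Type} [Fintype P] [Fintype I] [DecidableEq P] {a b c m : ℕ}
    (hb : Fintype.card P = b) (hc : Fintype.card I = c) (B : I → Fin m → P)
    (hinj : ∀ β, Function.Injective (B β))
    (hdeg : ∀ x : P, ∑ β, ∑ i, (if B β i = x then 1 else 0) = a)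
    (hpos : ∀ t : P → ℝ, Function.Injective t →
      0 ≤ ∏ β, ∏ i, ∏ j ∈ Finset.Ioi i, (t (B β j) - t (B β i))) :
    1 ≤ plethMult b a m (fun _ => c) := by
  classical
  subst hb hc
  let e : P ≃ Fin (Fintype.card P) := Fintype.equivFin P
  refine blk_aux (fun β i => e (B β i)) (fun β => e.injective.comp (hinj β)) ?_ ?_
  · intro x
    rw [← hdeg (e.symm x)]
    refine Finset.sum_congr rfl fun β _ => Finset.sum_congr rfl fun i _ => ?_
    by_cases h : B β i = e.symm x
    · rw [if_pos h, if_pos (by rw [h, Equiv.apply_symm_apply])]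
    · rw [if_neg h, if_neg (fun h' => h (by rw [← h', Equiv.symm_apply_apply]))]
  · intro t ht
    exact hpos (fun x => t (e x)) (ht.comp e.injective)

end Vale.Agent.P181.H23
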