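import Vale.Agent.P181.H385.Defs
import Vale.Agent.P181.H23.Blk

set_option autoImplicit false

/-!
# P181: invariants of forms of even degree
-/

namespace Vale.Agent.P181.H23

open Vale.Agent.P181 Vale.Agent.P181.H280 Vale.Agent.P181.H385

/-- **[InvE]** -/
theorem invE : InvE := by
  classical
  intro h K hh hK
  have : NeZero K := ⟨by omega⟩
  let B : ZMod K × Fin 2 → Fin (2 * h) → ZMod K × Fin 2 := fun β i =>
    (β.1 + (((i : ℕ) / 2 : ℕ) : ZMod K), ⟨(i : ℕ) % 2, Nat.mod_lt _ (by norm_num)⟩)
  refine blk (P := ZMod K × Fin 2) (I := ZMod K × Fin 2) ?_ ?_ B ?_ ?_ ?_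
  · rw [Fintype.card_prod, ZMod.card, Fintype.card_fin, mul_comm]
  · rw [Fintype.card_prod, ZMod.card, Fintype.card_fin, mul_comm]
  · intro β i j hij
    have h1 : β.1 + (((i : ℕ) / 2 : ℕ) : ZMod K) = β.1 + (((j : ℕ) / 2 : ℕ) : ZMod K) :=
      congrArg Prod.fst hij
    have h2 : (⟨(i : ℕ) % 2, Nat.mod_lt _ (by norm_num)⟩ : Fin 2) =
      ⟨(j : ℕ) % 2, Nat.mod_lt _ (by norm_num)⟩ := congrArg Prod.snd hij
    have h3 := add_left_cancel h1
    rw [ZMod.natCast_eq_natCast_iff] at h3
    have h4 : (i : ℕ) / 2 < K := by have := i.2; omega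
    have h5 : (j : ℕ) / 2 < K := by have := j.2; omega
    have h6 : (i : ℕ) / 2 = (j : ℕ) / 2 := h3.eq_of_lt_of_lt h4 h5
    have h7 : (i : ℕ) % 2 = (j : ℕ) % 2 := congrArg Fin.val h2
    apply Fin.ext
    omega
  · rintro ⟨v, r⟩
    rw [Finset.sum_comm]
    have h1 : ∀ i : Fin (2 * h), ∑ β : ZMod K × Fin 2, (if B β i = (v, r) then 1 else 0) =
        if (i : ℕ) % 2 = (r : ℕ) then 2 else 0 := by
      intro i
      rw [Fintype.sum_prod_type, Finset.sum_eq_single (v - (((i : ℕ) / 2 : ℕ) : ZMod K))]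
      · have h2 : ∀ s : Fin 2, (if B (v - (((i : ℕ) / 2 : ℕ) : ZMod K), s) i = (v, r) then 1 else 0)
            = if (i : ℕ) % 2 = (r : ℕ) then 1 else 0 := by
          intro s
          have h3 : (B (v - (((i : ℕ) / 2 : ℕ) : ZMod K), s) i = (v, r)) ↔
              (i : ℕ) % 2 = (r : ℕ) := by
            constructor
            · intro h4
              exact congrArg (fun x : ZMod K × Fin 2 => (x.2 : ℕ)) h4
            · intro h4
              refine Prod.ext (sub_add_cancel _ _) (Fin.ext h4)
          simp only [h3]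
        rw [Finset.sum_congr rfl fun s _ => h2 s, Finset.sum_const, Finset.card_univ,
          Fintype.card_fin]
        split_ifs <;> rfl
      · intro u _ hu
        refine Finset.sum_eq_zero fun s _ => if_neg ?_
        intro h4
        apply hu
        have h5 : u + (((i : ℕ) / 2 : ℕ) : ZMod K) = v := congrArg Prod.fst h4
        rw [← h5, add_sub_cancel_right]
      · intro h'
        exact absurd (Finset.mem_univ _) h'
    rw [Finset.sum_congr rfl fun i _ => h1 i]
    have h2 : ∑ i : Fin (2 * h), (if (i : ℕ) % 2 = (r : ℕ) then 2 else 0) =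
        ∑ x ∈ Finset.range (2 * h), (if x % 2 = (r : ℕ) then 2 else 0) :=
      Fin.sum_univ_eq_sum_range (fun x => if x % 2 = (r : ℕ) then 2 else 0) (2 * h)
    rw [h2]
    clear h1 h2 B hK
    induction h with
    | zero => rfl
    | succ n ih =>
      rcases Nat.eq_zero_or_pos n with hn | hn
      · subst hn
        fin_cases r <;> rfl
      · rw [Nat.mul_succ, Finset.sum_range_succ, Finset.sum_range_succ, ih hn]
        have h3 : (2 * n) % 2 = 0 := by omega
        have h4 : (2 * n + 1) % 2 = 1 := by omega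
        rw [h3, h4]
        fin_cases r <;> simp
  · intro t _
    rw [Fintype.prod_prod_type]
    refine Finset.prod_nonneg fun u _ => ?_
    rw [Fin.prod_univ_two]
    exact mul_self_nonneg _

end Vale.Agent.P181.H23
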